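import Vale.Agent.P218DY.Defs
import Vale.Agent.P218.H313.Near
import Vale.Agent.P218.H313.Main

/-! P218 (helper40): convergence of the rescaled flow from a gradient inequality. -/

open MeasureTheory Set Filter Topology Metric
open scoped ENNReal NNReal RealInnerProductSpace

namespace Vale.Agent.P218DY

open Vale.Agent.P218 Vale.Agent.P218.H313

/-- the length function -/
noncomputable def lenF (C β u : ℝ) : ℝ :=
  (2 * C) ^ (1 / (2 * β)) / (1 - 1 / (2 * β)) * u ^ (1 - 1 / (2 * β)) + 4 * √u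

theorem lenF_step {C β x y : ℝ} (hC : 0 < C) (hβ : 1 / 2 < β) (hy : 0 ≤ y) (hxy : y ≤ x)
    (h : y ≤ C * (x - y) ^ β) : √(x - y) ≤ lenF C β x - lenF C β y := by
  have hβ0 : 0 < β := by linarith
  obtain ⟨p, hp⟩ : ∃ p, p = 1 / (2 * β) := ⟨_, rfl⟩
  have hp0 : 0 < p := by rw [hp]; positivity
  have hp1 : p < 1 := by rw [hp, div_lt_one (by positivity)]; linarith
  have hpβ : β * p = 1 / 2 := by rw [hp]; field_simp
  unfold lenF
  rw [← hp]
  have hK : 0 < (2 * C) ^ p / (1 - p) := div_pos (by positivity) (by linarith)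
  have m1 : y ^ (1 - p) ≤ x ^ (1 - p) := Real.rpow_le_rpow hy hxy (by linarith)
  have m2 : √y ≤ √x := Real.sqrt_le_sqrt hxy
  have m3 := mul_le_mul_of_nonneg_left m1 hK.le
  rcases hxy.eq_or_lt with h0 | h0
  · rw [h0]
    simp
  have hx : 0 < x := lt_of_le_of_lt hy h0
  have hd : 0 < x - y := sub_pos.2 h0
  rcases le_total x (2 * y) with h1 | h1
  · have h2 : x ^ p ≤ (2 * C) ^ p * √(x - y) := by
      calc x ^ p ≤ (2 * C * (x - y) ^ β) ^ p := Real.rpow_le_rpow hx.le (by linarith) hp0.le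
        _ = (2 * C) ^ p * √(x - y) := by
          rw [Real.mul_rpow (by positivity) (by positivity), ← Real.rpow_mul hd.le, hpβ,
            Real.sqrt_eq_rpow]
    have h3 : y ^ (1 - p) ≤ x ^ (1 - p) * (1 - (1 - p) * ((x - y) / x)) := by
      have h4 := rpow_one_add_le_one_add_mul_self (s := -((x - y) / x)) (p := 1 - p)
        (by rw [neg_le_neg_iff, div_le_one hx]; linarith) (by linarith) (by linarith)
      have h5 : y = x * (1 + -((x - y) / x)) := by field_simp; ring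
      have h6 : 0 ≤ 1 + -((x - y) / x) := by
        have : (x - y) / x ≤ 1 := by rw [div_le_one hx]; linarith
        linarith
      calc y ^ (1 - p) = (x * (1 + -((x - y) / x))) ^ (1 - p) := by rw [← h5]
        _ = x ^ (1 - p) * (1 + -((x - y) / x)) ^ (1 - p) := Real.mul_rpow hx.le h6
        _ ≤ x ^ (1 - p) * (1 + (1 - p) * -((x - y) / x)) :=
            mul_le_mul_of_nonneg_left h4 (by positivity)
        _ = _ := by ring
    have hxp : 0 < x ^ p := Real.rpow_pos_of_pos hx p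
    have h4 : x ^ (1 - p) = x / x ^ p := by rw [Real.rpow_sub hx, Real.rpow_one]
    have h5 : (1 - p) * ((x - y) / x ^ p) ≤ x ^ (1 - p) - y ^ (1 - p) := by
      have h6 : x ^ (1 - p) * ((1 - p) * ((x - y) / x)) = (1 - p) * ((x - y) / x ^ p) := by
        rw [h4]
        field_simp
      rw [← h6]
      linarith
    have h6 : √(x - y) ≤ (2 * C) ^ p * ((x - y) / x ^ p) := by
      rw [← mul_div_assoc, le_div_iff₀ hxp]
      calc √(x - y) * x ^ p ≤ √(x - y) * ((2 * C) ^ p * √(x - y)) :=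
            mul_le_mul_of_nonneg_left h2 (Real.sqrt_nonneg _)
        _ = (2 * C) ^ p * (√(x - y) * √(x - y)) := by ring
        _ = (2 * C) ^ p * (x - y) := by rw [Real.mul_self_sqrt hd.le]
    have h7 := mul_le_mul_of_nonneg_left h5 hK.le
    have h8 : (2 * C) ^ p / (1 - p) * ((1 - p) * ((x - y) / x ^ p)) =
        (2 * C) ^ p * ((x - y) / x ^ p) := by
      have : 1 - p ≠ 0 := by linarith
      field_simp
    rw [h8, mul_sub] at h7
    linarith
  · have h2 : √(x - y) ≤ √x := Real.sqrt_le_sqrt (by linarith)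
    have h3 : √y ≤ 3 / 4 * √x := by
      refine Real.sqrt_le_iff.2 ⟨by positivity, ?_⟩
      rw [mul_pow, Real.sq_sqrt hx.le]
      linarith
    linarith

theorem lenF_nonneg {C β u : ℝ} (hC : 0 < C) (hβ : 1 / 2 < β) (hu : 0 ≤ u) : 0 ≤ lenF C β u := by
  have h : 1 / (2 * β) < 1 := by rw [div_lt_one (by linarith)]; linarith
  unfold lenF
  have : 0 < (2 * C) ^ (1 / (2 * β)) / (1 - 1 / (2 * β)) := div_pos (by positivity) (by linarith)
  positivity

theorem lenF_tendsto {C β : ℝ} (hβ : 1 / 2 < β) : Tendsto (lenF C β) (𝓝 0) (𝓝 0) := by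
  have h : 1 / (2 * β) < 1 := by rw [div_lt_one (by linarith)]; linarith
  have h1 : Tendsto (fun u : ℝ => u ^ (1 - 1 / (2 * β))) (𝓝 0) (𝓝 0) := by
    have h2 := (Real.continuousAt_rpow_const 0 (1 - 1 / (2 * β)) (Or.inr (by linarith))).tendsto
    rwa [Real.zero_rpow (by linarith)] at h2
  have h2 : Tendsto (fun u : ℝ => √u) (𝓝 0) (𝓝 0) := by
    simpa using Real.continuous_sqrt.tendsto 0
  have h3 := (h1.const_mul ((2 * C) ^ (1 / (2 * β)) / (1 - 1 / (2 * β)))).add (h2.const_mul 4)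
  rw [mul_zero, mul_zero, add_zero] at h3
  exact h3

variable {E : Type*} [NormedAddCommGroup E] [InnerProductSpace ℝ E] [FiniteDimensional ℝ E]
  [MeasurableSpace E] [BorelSpace E] {m : ℕ}
  {N : ℝ → Measure E} {T : ℝ → E → Submodule ℝ E} {H : ℝ → E → E} {s₀ : ℝ}

/-- a time with small dissipation outside a null set -/
theorem exists_good' (h : RF m N T H s₀) {I : ℝ → Prop} (hI : ∀ᵐ s : ℝ, s₀ ≤ s → I s) {a : ℝ}
    (ha : s₀ ≤ a) : ∃ s ∈ Icc a (a + 1), GSlice m (N s) (T s) (H s) ∧ I s ∧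
      dis (N s) (T s) (H s) ≤ FA (N a) - FA (N (a + 1)) := by
  have hab : a ≤ a + 1 := by linarith
  obtain ⟨h1, h2⟩ := h.dis_int ha hab
  have h3 : ∀ᵐ s ∂(volume.restrict (Ioc a (a + 1))),
      s ∈ Icc a (a + 1) ∧ GSlice m (N s) (T s) (H s) ∧ I s := by
    filter_upwards [ae_restrict_mem measurableSet_Ioc, ae_restrict_of_ae h.gslice,
      ae_restrict_of_ae hI] with s k1 k2 k3
    exact ⟨Ioc_subset_Icc_self k1, k2 (ha.trans k1.1.le), k3 (ha.trans k1.1.le)⟩
  have : IsProbabilityMeasure (volume.restrict (Ioc a (a + 1))) := ⟨by simp⟩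
  obtain ⟨s, hs1, hs2⟩ := exists_notMem_null_le_integral h1.1 (ae_iff.1 h3)
  have hs3 := not_not.1 hs1
  rw [← intervalIntegral.integral_of_le hab] at hs2
  exact ⟨s, hs3.1, hs3.2.1, hs3.2.2, hs2.trans h2⟩

theorem move_le (h : RF m N T H s₀) {ψ : E → ℝ} (hψ : ContDiff ℝ 1 ψ)
    (hψc : HasCompactSupport ψ) : ∃ K : ℝ, 0 ≤ K ∧ ∀ a b, s₀ ≤ a → a ≤ b → b ≤ a + 1 →
      ∫ x, ψ x * rho x ∂(N b) - ∫ x, ψ x * rho x ∂(N a) ≤ K * √(FA (N a) - FA (N b)) := by
  obtain ⟨M, hM⟩ := hψ.continuous.bounded_above_of_compact_support hψc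
  obtain ⟨M1, hM1⟩ := (hψ.continuous_fderiv (by norm_num)).bounded_above_of_compact_support
    (hψc.fderiv (𝕜 := ℝ))
  have hM0 : 0 ≤ M := (norm_nonneg _).trans (hM 0)
  have hM10 : 0 ≤ M1 := (norm_nonneg _).trans (hM1 0)
  have hpg : PG ψ := PG.of_compact hψ hψc
  have hf : PG fun x => M + ψ x := (PG.const M).add hpg
  have hnn : ∀ x, 0 ≤ M + ψ x := fun x => by
    have := neg_abs_le (ψ x)
    have := hM x
    rw [Real.norm_eq_abs] at this
    linarith
  obtain ⟨F, hF⟩ : ∃ F, F = √(FA (N s₀)) := ⟨_, rfl⟩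
  have hF0 : 0 ≤ F := hF ▸ Real.sqrt_nonneg _
  refine ⟨M * F + 2 * (M1 * F), by positivity, fun a b ha hab hb => ?_⟩
  obtain ⟨d, hd⟩ : ∃ d, d = FA (N a) - FA (N b) := ⟨_, rfl⟩
  have hd0 : 0 ≤ d := by rw [hd]; linarith [h.FA_anti ha hab]
  have hdF : √d ≤ F := by
    rw [hF]
    refine Real.sqrt_le_sqrt ?_
    rw [hd]
    linarith [h.FA_anti le_rfl ha, RF.FA_nonneg (N b)]
  obtain ⟨i1, i2⟩ := h.ineq_PG hf hnn ha hab
  obtain ⟨j1, j2⟩ := h.dis_int ha hab
  have hev : ∀ s, s₀ ≤ s → ∫ x, (M + ψ x) * rho x ∂(N s) =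
      M * FA (N s) + ∫ x, ψ x * rho x ∂(N s) := by
    intro s hs
    obtain ⟨M', hM'⟩ := h.moment 0
    have k1 : Integrable (fun x => rho x) (N s) := by simpa using (hM' s hs).1
    have k2 : Integrable (fun x => ψ x * rho x) (N s) :=
      (k1.const_mul M).mono' (hψ.continuous.mul continuous_rho).aestronglyMeasurable
        (Eventually.of_forall fun x => by
          rw [norm_mul, Real.norm_of_nonneg (rho_pos x).le]
          exact mul_le_mul_of_nonneg_right (hM x) (rho_pos x).le)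
    unfold FA
    rw [← integral_const_mul, ← integral_add (k1.const_mul M) k2]
    simp only [add_mul]
  rw [hev b (ha.trans hab), hev a ha] at i2
  have hrate : ∀ᵐ s ∂(volume.restrict (Icc a b)),
      LL (N s) (T s) (H s) (fun x => M + ψ x) ≤ M1 * F * √(dis (N s) (T s) (H s)) := by
    filter_upwards [h.ae_gslice ha hab, ae_restrict_mem measurableSet_Icc] with s hs hs'
    rw [hs.LL_eq hf]
    have k1 : 0 ≤ ∫ x, (M + ψ x) * ‖vel (T s) (H s) x‖ ^ 2 * rho x ∂(N s) :=
      integral_nonneg fun x => mul_nonneg (mul_nonneg (hnn x) (sq_nonneg _)) (rho_pos x).le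
    have k2 : Integrable (fun x => ‖vel (T s) (H s) x‖ * rho x) (N s) :=
      hs.integrable hs.vel_meas.norm (C := 1) (p := 0) (Eventually.of_forall fun x => by
        rw [abs_of_nonneg (norm_nonneg _)]
        nlinarith [sq_nonneg (‖vel (T s) (H s) x‖ - 1), norm_nonneg (vel (T s) (H s) x)])
    have k3 : ∫ x, ⟪grad (fun x => M + ψ x) x, vel (T s) (H s) x⟫ * rho x ∂(N s) ≤
        M1 * ∫ x, ‖vel (T s) (H s) x‖ * rho x ∂(N s) := by
      rw [← integral_const_mul]
      refine (Real.le_norm_self _).trans (norm_integral_le_of_norm_le (k2.const_mul M1)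
        (Eventually.of_forall fun x => ?_))
      rw [norm_mul, Real.norm_of_nonneg (rho_pos x).le, ← mul_assoc]
      refine mul_le_mul_of_nonneg_right ((norm_inner_le_norm _ _).trans
        (mul_le_mul_of_nonneg_right ?_ (norm_nonneg _))) (rho_pos x).le
      rw [norm_grad, fderiv_const_add]
      exact hM1 x
    have k4 := int_vel_le hs
    have k5 : √(∫ x, rho x ∂(N s)) ≤ F := by
      rw [hF]
      exact Real.sqrt_le_sqrt (h.FA_anti le_rfl (ha.trans hs'.1))
    have k6 : M1 * ∫ x, ‖vel (T s) (H s) x‖ * rho x ∂(N s) ≤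
        M1 * (F * √(dis (N s) (T s) (H s))) :=
      mul_le_mul_of_nonneg_left (k4.trans (mul_le_mul_of_nonneg_right k5 (Real.sqrt_nonneg _))) hM10
    linarith
  have key : ∀ t, 0 < t → ∫ s in a..b, LL (N s) (T s) (H s) (fun x => M + ψ x) ≤
      M1 * F * (t + d / t) := by
    intro t ht
    have k1 : ∫ s in a..b, LL (N s) (T s) (H s) (fun x => M + ψ x) ≤
        ∫ s in a..b, M1 * F * (t + dis (N s) (T s) (H s) / t) := by
      refine intervalIntegral.integral_mono_ae_restrict hab i1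
        ((intervalIntegrable_const.add (j1.div_const t)).const_mul _) ?_
      filter_upwards [hrate] with s hs
      refine hs.trans (mul_le_mul_of_nonneg_left ?_ (by positivity))
      have k2 := dis_nonneg (μ := N s) (T := T s) (H := H s)
      refine Real.sqrt_le_iff.2 ⟨by positivity, ?_⟩
      have k3 : (t + dis (N s) (T s) (H s) / t) ^ 2 = t ^ 2 + 2 * dis (N s) (T s) (H s) +
          (dis (N s) (T s) (H s) / t) ^ 2 := by field_simp; ring
      rw [k3]
      nlinarith [sq_nonneg t, sq_nonneg (dis (N s) (T s) (H s) / t)]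
    rw [intervalIntegral.integral_const_mul, intervalIntegral.integral_add intervalIntegrable_const
      (j1.div_const t), intervalIntegral.integral_const, intervalIntegral.integral_div,
      smul_eq_mul] at k1
    refine k1.trans (mul_le_mul_of_nonneg_left (add_le_add ?_ ?_) (by positivity))
    · nlinarith
    · rw [hd]
      exact div_le_div_of_nonneg_right j2 ht.le
  have key2 : ∫ s in a..b, LL (N s) (T s) (H s) (fun x => M + ψ x) ≤ 2 * (M1 * F) * √d := by
    rcases hd0.eq_or_lt with h0 | h0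
    · rw [← h0, Real.sqrt_zero, mul_zero]
      refine le_of_forall_pos_le_add fun ε hε => ?_
      refine (key (ε / (M1 * F + 1)) (by positivity)).trans ?_
      rw [← h0, zero_div, add_zero, zero_add, ← mul_div_assoc, div_le_iff₀ (by positivity)]
      nlinarith
    · refine (key (√d) (Real.sqrt_pos.2 h0)).trans (le_of_eq ?_)
      rw [Real.div_sqrt]
      ring
  have k1 : M * d ≤ M * F * √d := by
    calc M * d = M * (√d * √d) := by rw [Real.mul_self_sqrt hd0]
      _ ≤ M * (F * √d) :=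
          mul_le_mul_of_nonneg_left (mul_le_mul_of_nonneg_right hdF (Real.sqrt_nonneg _)) hM0
      _ = M * F * √d := by ring
  rw [← hd]
  have k2 : M * d = M * FA (N a) - M * FA (N b) := by rw [hd]; ring
  linarith

theorem move_abs (h : RF m N T H s₀) {φ : E → ℝ} (hφ : ContDiff ℝ 1 φ)
    (hφc : HasCompactSupport φ) : ∃ K : ℝ, 0 ≤ K ∧ ∀ a b, s₀ ≤ a → a ≤ b → b ≤ a + 1 →
      |∫ x, φ x ∂(N b) - ∫ x, φ x ∂(N a)| ≤ K * √(FA (N a) - FA (N b)) := by
  have h1 : ContDiff ℝ 1 fun x : E => φ x * Real.exp (‖x‖ ^ 2 / 4) :=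
    hφ.mul (contDiff_rho_inv (n := 1))
  have h2 : HasCompactSupport fun x : E => φ x * Real.exp (‖x‖ ^ 2 / 4) := hφc.mul_right
  obtain ⟨K1, hK1, k1⟩ := move_le h h1 h2
  obtain ⟨K2, hK2, k2⟩ := move_le h h1.neg h2.neg
  refine ⟨K1 + K2, by positivity, fun a b ha hab hb => ?_⟩
  have k3 := k1 a b ha hab hb
  have k4 := k2 a b ha hab hb
  simp only [neg_mul, integral_neg, int_div_rho] at k3 k4
  have k5 := mul_nonneg hK1 (Real.sqrt_nonneg (FA (N a) - FA (N b)))
  have k6 := mul_nonneg hK2 (Real.sqrt_nonneg (FA (N a) - FA (N b)))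
  rw [abs_le]
  constructor <;> linarith

/-- the movement along a chain of good steps -/
theorem chain_le (h : RF m N T H s₀) {F C β K : ℝ} (hF : ∀ s, s₀ ≤ s → F ≤ FA (N s)) (hC : 0 < C)
    (hβ : 1 / 2 < β) (hK : 0 ≤ K) {Φ : ℝ → ℝ}
    (hΦ : ∀ a b, s₀ ≤ a → a ≤ b → b ≤ a + 1 → |Φ b - Φ a| ≤ K * √(FA (N a) - FA (N b)))
    {a : ℝ} (ha : s₀ ≤ a) {n : ℕ}
    (hgood : ∀ k < n, FA (N (a + k + 1)) - F ≤ C * (FA (N (a + k)) - FA (N (a + k + 1))) ^ β)
    {b : ℝ} (hb1 : a + n ≤ b) (hb2 : b ≤ a + n + 1) :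
    |Φ b - Φ a| ≤ K * (lenF C β (FA (N a) - F) + √(FA (N a) - F)) := by
  have hk0 : ∀ k : ℕ, s₀ ≤ a + k := fun k => by linarith [(Nat.cast_nonneg k : (0 : ℝ) ≤ k)]
  have h1 : ∀ k ≤ n, |Φ (a + k) - Φ a| ≤
      K * (lenF C β (FA (N a) - F) - lenF C β (FA (N (a + k)) - F)) := by
    intro k
    induction k with
    | zero => simp
    | succ k ih =>
      intro hk
      have k1 := ih (by omega)
      have k2 := hΦ (a + k) (a + k + 1) (hk0 k) (by linarith) le_rfl
      have k3 := lenF_step (x := FA (N (a + k)) - F) (y := FA (N (a + k + 1)) - F) hC hβ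
        (sub_nonneg.2 (hF _ (by linarith [hk0 k])))
        (by linarith [h.FA_anti (hk0 k) (show a + k ≤ a + k + 1 by linarith)])
        (by rw [sub_sub_sub_cancel_right]; exact hgood k (by omega))
      rw [sub_sub_sub_cancel_right] at k3
      have k4 := mul_le_mul_of_nonneg_left k3 hK
      have k5 := abs_sub_le (Φ (a + k + 1)) (Φ (a + k)) (Φ a)
      push_cast
      rw [← add_assoc]
      linarith
  have k1 := h1 n le_rfl
  have k2 := hΦ (a + n) b (hk0 n) hb1 hb2
  have k3 : √(FA (N (a + n)) - FA (N b)) ≤ √(FA (N a) - F) := by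
    refine Real.sqrt_le_sqrt ?_
    linarith [hF b ((hk0 n).trans hb1),
      h.FA_anti ha (show a ≤ a + n by linarith [(Nat.cast_nonneg n : (0 : ℝ) ≤ n)])]
  have k4 := mul_le_mul_of_nonneg_left k3 hK
  have k5 := mul_nonneg hK (lenF_nonneg hC hβ (sub_nonneg.2 (hF _ (hk0 n))))
  have k6 := abs_sub_le (Φ b) (Φ (a + n)) (Φ a)
  linarith

/-- **The length argument.** -/
theorem converge_of_loj (h : RF m N T H s₀) (hslow : Slow N s₀) {κ : Measure E}
    [IsLocallyFiniteMeasure κ]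
    (hseq : ∃ τ : ℕ → ℝ, Tendsto τ atTop atTop ∧ WeakTendsto (fun i => N (τ i)) κ)
    {I : ℝ → Prop} (hI : ∀ᵐ s : ℝ, s₀ ≤ s → I s) {C β : ℝ} (hβ : 1 / 2 < β)
    (hloj : ∀ᶠ s in nearF m N T H κ, I s → FA (N s) - FA κ ≤ C * dis (N s) (T s) (H s) ^ β)
    {φ : E → ℝ} (hφ : ContDiff ℝ 2 φ) (hφc : HasCompactSupport φ) :
    ∃ L, Tendsto (fun s => ∫ x, φ x ∂(N s)) atTop (𝓝 L) := by
  classical
  obtain ⟨τ0, hτ0, hw0⟩ := hseq
  choose t ht1 ht2 _ using fun i => exists_good' h hI (le_max_right (τ0 i) s₀)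
  have hts : ∀ i, s₀ ≤ t i := fun i => (le_max_right _ _).trans (ht1 i).1
  have htt : Tendsto t atTop atTop :=
    tendsto_atTop_mono (fun i => (le_max_left _ _).trans (ht1 i).1) hτ0
  have htw : WeakTendsto (fun i => N (t i)) κ := by
    refine hslow.weakTendsto_shift hτ0 one_pos ?_ hw0
    filter_upwards [hτ0.eventually_ge_atTop s₀] with i hi
    have k1 := ht1 i
    rw [max_eq_left hi] at k1
    rw [abs_le]
    constructor <;> linarith [k1.1, k1.2]
  have hFt : Tendsto (fun i => FA (N (t i))) atTop (𝓝 (FA κ)) := by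
    have k1 := (h.lim_PB (κ := κ) (f := fun _ => 1) continuous_const (PB.const 1)).comp
      (tendsto_nearF htt (Eventually.of_forall ht2) htw)
    simp only [one_mul] at k1
    exact k1
  have hF : ∀ s, s₀ ≤ s → FA κ ≤ FA (N s) := fun s hs =>
    le_of_tendsto hFt ((htt.eventually_ge_atTop s).mono fun i hi => h.FA_anti hs hi)
  have hΨ : Tendsto (fun u => lenF (|C| + 1) β u + √u) (𝓝 0) (𝓝 0) := by
    have k1 : Tendsto (fun u : ℝ => √u) (𝓝 0) (𝓝 0) := by
      simpa using Real.continuous_sqrt.tendsto 0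
    simpa using (lenF_tendsto (C := |C| + 1) hβ).add k1
  have hC : 0 < |C| + 1 := by positivity
  have hgood : ∃ i, ∀ k : ℕ, FA (N (t i + k + 1)) - FA κ ≤
      (|C| + 1) * (FA (N (t i + k)) - FA (N (t i + k + 1))) ^ β := by
    by_contra hcon
    push Not at hcon
    have hk0 : ∀ (i k : ℕ), s₀ ≤ t i + k := fun i k => by
      linarith [(Nat.cast_nonneg k : (0 : ℝ) ≤ k), hts i]
    choose σ hσ1 hσ2 hσ3 hσ4 using fun i => exists_good' h hI (hk0 i (Nat.find (hcon i)))
    have hσt : Tendsto σ atTop atTop := tendsto_atTop_mono (fun i => by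
      linarith [(hσ1 i).1, (Nat.cast_nonneg (Nat.find (hcon i)) : (0 : ℝ) ≤ _)]) htt
    have hσw : WeakTendsto (fun i => N (σ i)) κ := by
      refine weakTendsto_of_contDiff hslow (fun i => (hk0 i _).trans (hσ1 i).1) fun ψ hψ hψc => ?_
      obtain ⟨K, hK, hΦ⟩ := move_abs h (hψ.of_le (by norm_num)) hψc
      have k1 : Tendsto (fun i => ∫ x, ψ x ∂(N (σ i)) - ∫ x, ψ x ∂(N (t i))) atTop (𝓝 0) := by
        have k2 := (hΨ.comp (tendsto_sub_nhds_zero_iff.2 hFt)).const_mul K
        rw [mul_zero] at k2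
        exact squeeze_zero_norm (fun i => chain_le h hF hC hβ hK hΦ (hts i)
          (fun k hk => not_lt.1 (Nat.find_min (hcon i) hk)) (hσ1 i).1 (hσ1 i).2) k2
      simpa using k1.add (htw ψ hψ.continuous hψc)
    obtain ⟨i, hi⟩ := ((tendsto_nearF hσt (Eventually.of_forall hσ2) hσw).eventually hloj).exists
    have k1 := hi (hσ3 i)
    have k2 := Nat.find_spec (hcon i)
    have k3 := h.FA_anti ((hk0 i _).trans (hσ1 i).1) (hσ1 i).2
    have k4 := dis_nonneg (μ := N (σ i)) (T := T (σ i)) (H := H (σ i))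
    have k5 := Real.rpow_le_rpow k4 (hσ4 i) (show 0 ≤ β by linarith)
    have k6 := Real.rpow_nonneg k4 β
    have k7 := mul_le_mul_of_nonneg_left k5 hC.le
    have k8 := mul_le_mul_of_nonneg_right (show C ≤ |C| + 1 by linarith [le_abs_self C]) k6
    linarith
  obtain ⟨i, hi⟩ := hgood
  obtain ⟨K, hK, hΦ⟩ := move_abs h (hφ.of_le (by norm_num)) hφc
  have hFs : Tendsto (fun k : ℕ => FA (N (t i + k)) - FA κ) atTop (𝓝 0) := by
    refine tendsto_order.2 ⟨fun c hc => Eventually.of_forall fun k => hc.trans_le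
      (sub_nonneg.2 (hF _ (by linarith [(Nat.cast_nonneg k : (0 : ℝ) ≤ k), hts i]))),
      fun c hc => ?_⟩
    obtain ⟨j, hj⟩ := ((tendsto_sub_nhds_zero_iff.2 hFt).eventually (gt_mem_nhds hc)).exists
    filter_upwards [(tendsto_atTop_add_const_left atTop (t i)
      tendsto_natCast_atTop_atTop).eventually_ge_atTop (t j)] with k hk
    linarith [h.FA_anti (hts j) hk]
  refine cauchySeq_tendsto_of_complete (Metric.cauchySeq_iff'.2 fun ε hε => ?_)
  have k1 := (hΨ.comp hFs).const_mul K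
  rw [mul_zero] at k1
  obtain ⟨k, hk⟩ := (k1.eventually (gt_mem_nhds hε)).exists
  refine ⟨t i + k, fun b hb => lt_of_le_of_lt ?_ hk⟩
  rw [Real.dist_eq]
  refine chain_le h hF hC hβ hK hΦ (n := ⌊b - (t i + k)⌋₊)
    (by linarith [(Nat.cast_nonneg k : (0 : ℝ) ≤ k), hts i]) (fun j _ => ?_) ?_ ?_
  · have k2 := hi (k + j)
    push_cast at k2
    rwa [← add_assoc] at k2
  · linarith [Nat.floor_le (sub_nonneg.2 hb)]
  · linarith [Nat.lt_floor_add_one (b - (t i + k))]

end Vale.Agent.P218DY
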