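import Vale.Agent.P218DY.Tube2

/-! The Jacobian of the foot map along a hyperplane. -/

open MeasureTheory Set Filter Topology Metric
open scoped ENNReal NNReal RealInnerProductSpace

namespace Vale.Agent.P218DY

open Vale.Agent.P214 (proj divAlong)
open Vale.Agent.P218 Vale.Agent.P218.H313

set_option linter.unusedSectionVars false
set_option linter.unusedVariables false

variable {E : Type*} [NormedAddCommGroup E] [InnerProductSpace ℝ E] [FiniteDimensional ℝ E]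
variable {m : ℕ}

lemma exp_le_one_add {x : ℝ} (hx : -(1 / 2) ≤ x) : Real.exp (x - 2 * x ^ 2) ≤ 1 + x := by
  have h1 := Real.add_one_le_exp (-(x - 2 * x ^ 2))
  have h2 : Real.exp (x - 2 * x ^ 2) * Real.exp (-(x - 2 * x ^ 2)) = 1 := by
    rw [← Real.exp_add, add_neg_cancel, Real.exp_zero]
  have h3 := Real.exp_pos (x - 2 * x ^ 2)
  have h4 : 0 < -(x - 2 * x ^ 2) + 1 := by nlinarith [sq_nonneg (x - 1 / 4)]
  have h5 : Real.exp (x - 2 * x ^ 2) * (-(x - 2 * x ^ 2) + 1) ≤ 1 :=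
    (mul_le_mul_of_nonneg_left h1 h3.le).trans h2.le
  have h6 : 1 ≤ (1 + x) * (-(x - 2 * x ^ 2) + 1) := by
    nlinarith [mul_nonneg (sq_nonneg x) (show 0 ≤ 1 + 2 * x by linarith)]
  exact le_of_mul_le_mul_right (h5.trans h6) h4

/-- the square of the Jacobian is the product of the squared lengths along a suitable basis -/
lemma exists_basis_normDet {U : Type*} [NormedAddCommGroup U] [InnerProductSpace ℝ U]
    [FiniteDimensional ℝ U] (hU : Module.finrank ℝ U = m) (f : U →ₗ[ℝ] E) :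
    ∃ b : OrthonormalBasis (Fin m) ℝ U, f.normDet ^ 2 = ∏ i, ‖f (b i)‖ ^ 2 := by
  have hs := f.isSymmetric_adjoint_comp_self
  refine ⟨hs.eigenvectorBasis hU, ?_⟩
  have h1 := f.normDet_sq
  rw [hs.det_eq_prod_eigenvalues hU] at h1
  simp only [RCLike.ofReal_real_eq_id, id_eq] at h1
  rw [h1]
  refine Finset.prod_congr rfl fun i _ => ?_
  have h2 := hs.apply_eigenvectorBasis hU i
  have h3 := congrArg (fun v => ⟪hs.eigenvectorBasis hU i, v⟫) h2
  simp only [LinearMap.comp_apply, LinearMap.adjoint_inner_right, real_inner_smul_right,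
    real_inner_self_eq_norm_sq, OrthonormalBasis.norm_eq_one, RCLike.ofReal_real_eq_id,
    id_eq] at h3
  rw [h3]; ring

/-- second order lower bound for a Jacobian near one -/
lemma normDet_ge {U : Type*} [NormedAddCommGroup U] [InnerProductSpace ℝ U]
    [FiniteDimensional ℝ U] (hU : Module.finrank ℝ U = m) (f : U →ₗ[ℝ] E) {a : ℝ}
    (ha : a ≤ 1 / 2) (hf : ∀ v, ‖v‖ = 1 → |‖f v‖ ^ 2 - 1| ≤ a) :
    ∃ b : OrthonormalBasis (Fin m) ℝ U,
      1 + (∑ i, (‖f (b i)‖ ^ 2 - 1)) / 2 - m * a ^ 2 ≤ f.normDet := by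
  obtain ⟨b, hb⟩ := exists_basis_normDet hU f
  refine ⟨b, ?_⟩
  set x : Fin m → ℝ := fun i => ‖f (b i)‖ ^ 2 - 1 with hx
  have hxa : ∀ i, |x i| ≤ a := fun i => hf _ (b.norm_eq_one i)
  set s := ∑ i, (x i - 2 * x i ^ 2) with hs
  have h1 : Real.exp (s / 2) ^ 2 ≤ f.normDet ^ 2 := by
    rw [hb, ← Real.exp_nat_mul, show ((2 : ℕ) : ℝ) * (s / 2) = s by push_cast; ring, hs,
      Real.exp_sum]
    refine Finset.prod_le_prod (fun i _ => (Real.exp_pos _).le) fun i _ => ?_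
    have h2 := exp_le_one_add (x := x i) (by linarith [(abs_le.1 (hxa i)).1])
    refine h2.trans (le_of_eq ?_)
    simp only [hx]; ring
  have h2 : Real.exp (s / 2) ≤ f.normDet :=
    (pow_le_pow_iff_left₀ (Real.exp_pos _).le f.normDet_nonneg two_ne_zero).1 h1
  have h3 := Real.add_one_le_exp (s / 2)
  have h4 : ∑ i, x i ^ 2 ≤ m * a ^ 2 := by
    have : ∀ i ∈ (Finset.univ : Finset (Fin m)), x i ^ 2 ≤ a ^ 2 := fun i _ =>
      sq_le_sq' (abs_le.1 (hxa i)).1 (abs_le.1 (hxa i)).2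
    refine (Finset.sum_le_card_nsmul _ _ _ this).trans (le_of_eq ?_)
    simp
  have h5 : s = ∑ i, x i - 2 * ∑ i, x i ^ 2 := by
    rw [hs, Finset.sum_sub_distrib, Finset.mul_sum]
  linarith

lemma proj_eq_sum {T : Submodule ℝ E} (b : OrthonormalBasis (Fin m) ℝ T) (v : E) :
    proj T v = ∑ i, ⟪(b i : E), v⟫ • (b i : E) := by
  unfold proj
  rw [b.starProjection_eq_sum_rankOne]
  simp

lemma tr_proj_comp {T : Submodule ℝ E} (b : OrthonormalBasis (Fin m) ℝ T) (A : E →L[ℝ] E) :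
    tr ((proj T).comp A) = ∑ i, ⟪(b i : E), A (b i)⟫ := by
  have h1 : (proj T).comp A = ∑ i, ((innerSL ℝ (b i : E)).comp A).smulRight (b i : E) := by
    ext v
    simp [proj_eq_sum b]
  rw [h1]
  change trL E _ = _
  rw [map_sum]
  refine Finset.sum_congr rfl fun i _ => ?_
  have h2 := tr_comp_smulRight (ContinuousLinearMap.id ℝ E) ((innerSL ℝ (b i : E)).comp A)
    (b i : E)
  rw [ContinuousLinearMap.id_comp] at h2
  exact h2

lemma norm_proj_sq_eq_sum {T : Submodule ℝ E} (b : OrthonormalBasis (Fin m) ℝ T) (v : E) :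
    ‖proj T v‖ ^ 2 = ∑ i, ⟪v, (b i : E)⟫ ^ 2 := by
  have h1 : ‖proj T v‖ ^ 2 = ⟪v, proj T v⟫ := by
    rw [← real_inner_self_eq_norm_sq]
    unfold proj
    rw [T.inner_starProjection_left_eq_right,
      Submodule.starProjection_eq_self_iff.2 (T.starProjection_apply_mem v)]
  rw [h1, proj_eq_sum b, inner_sum]
  refine Finset.sum_congr rfl fun i _ => ?_
  rw [real_inner_smul_right, real_inner_comm, sq]

/-- the squared length of the derivative of the foot map -/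
lemma TubeG.norm_fderiv_ft_sq {W : E → ℝ} {c K : ℝ} (hW : TubeG W c K) {x : E} (hx : |W x| < c)
    (v : E) : ‖fderiv ℝ (ft W) x v‖ ^ 2 = ‖v‖ ^ 2 - 2 * W x * ⟪v, fderiv ℝ (grad W) x v⟫
      + W x ^ 2 * ‖fderiv ℝ (grad W) x v‖ ^ 2 - ⟪grad W x, v⟫ ^ 2 := by
  rw [hW.fderiv_ft]
  have h1 : ⟪fderiv ℝ (grad W) x v, grad W x⟫ = 0 := by
    rw [hess_symm hW.smooth, hW.hess_grad hx, inner_zero_right]
  have h2 := hW.eik x hx
  generalize fderiv ℝ (grad W) x v = u at h1 ⊢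
  generalize grad W x = g at h1 h2 ⊢
  rw [norm_sub_sq_real, norm_sub_sq_real, inner_sub_left, real_inner_smul_right,
    real_inner_smul_right, real_inner_smul_right, real_inner_smul_left, h1, norm_smul, norm_smul,
    h2, real_inner_comm g v]
  simp only [Real.norm_eq_abs, mul_pow, sq_abs]
  ring

lemma jac_arith1 {u t p q r : ℝ} (hu0 : 0 ≤ u) (hu : u ≤ 1 / 16) (hp : |p| ≤ u) (hq0 : 0 ≤ q)
    (hq : q ≤ u ^ 2) (hr0 : 0 ≤ r) (hr : r ≤ t) : |1 ^ 2 - 2 * p + q - r - 1| ≤ 3 * u + t := by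
  have h11 : u ^ 2 ≤ u := by nlinarith
  have h10 := abs_le.1 hp
  rw [abs_le]
  constructor <;> linarith [h10.1, h10.2]

lemma jac_arith2 {u t M p s d C : ℝ} (hu0 : 0 ≤ u) (hu : u ≤ 1 / 16) (ht0 : 0 ≤ t)
    (ht : t ≤ 1 / 8) (hM : 0 ≤ M) (hp : |p| ≤ u * t) (hs : -2 * (d - p) - t ≤ s)
    (hC : 256 * (M + 5) * (u ^ 2 + t) ≤ C) :
    1 - d - C ≤ 1 + s / 2 - M * (3 * u + t) ^ 2 := by
  have h5 := (abs_le.1 hp).1
  have h6 : u * t ≤ t := by nlinarith
  have h7 : (3 * u + t) ^ 2 ≤ 18 * (u ^ 2 + t) := by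
    have h8 : t * t ≤ t := by nlinarith
    nlinarith [sq_nonneg (3 * u - t)]
  have h8 := mul_le_mul_of_nonneg_left h7 hM
  nlinarith [sq_nonneg u, mul_nonneg hM (sq_nonneg u), mul_nonneg hM ht0]

lemma jac_arith3 {u t M d C : ℝ} (hu0 : 0 ≤ u) (hu : u ≤ 1 / 4) (ht0 : 0 ≤ t)
    (hs : ¬(u ≤ 1 / 16 ∧ t ≤ 1 / 8)) (hM : 0 ≤ M) (hd : |d| ≤ (M + 1) * u)
    (hC : 256 * (M + 5) * (u ^ 2 + t) ≤ C) : 1 - d - C ≤ 0 := by
  have h1 : 1 / 256 ≤ u ^ 2 + t := by
    rcases not_and_or.1 hs with h | h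
    · nlinarith
    · nlinarith [sq_nonneg u]
  have h3 := (abs_le.1 hd).1
  have h4 : (M + 1 : ℝ) * u ≤ (M + 1) * (1 / 4) := mul_le_mul_of_nonneg_left hu (by positivity)
  have h5 := mul_le_mul_of_nonneg_left h1 (show (0 : ℝ) ≤ 256 * (M + 5) by positivity)
  linarith

/-- DY-F2: Jacobian of the foot map -/
theorem jac_ft_ge (hE : Module.finrank ℝ E = m + 1) (K : ℝ) : ∃ C : ℝ, 0 ≤ C ∧
    ∀ (W : E → ℝ) (c : ℝ), TubeG W c K → ∀ x, |W x| < c → ∀ T : Submodule ℝ E,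
      Module.finrank ℝ T = m →
      1 - W x * tr (fderiv ℝ (grad W) x) - C * (W x ^ 2 + ‖proj T (grad W x)‖ ^ 2)
        ≤ ((fderiv ℝ (ft W) x).toLinearMap.domRestrict T).normDet := by
  refine ⟨256 * (m + 5) * (K ^ 2 + 1), by positivity, fun W c hW x hx T hT => ?_⟩
  set B := fderiv ℝ (grad W) x with hB
  set g := grad W x with hg
  set w := W x with hw
  set τ := ‖proj T g‖ with hτ
  have hK1 := hW.K1
  have hBK : ‖B‖ ≤ K := hW.b2 x
  have hwK : |w| * K ≤ 1 / 4 := (mul_le_mul_of_nonneg_right hx.le hW.K0).trans hW.cK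
  have hτ0 : 0 ≤ τ := norm_nonneg _
  have hτ1 : τ ≤ 1 := (norm_proj_apply_le _ _).trans (hW.b1 x)
  have hm0 : (0 : ℝ) ≤ m := Nat.cast_nonneg m
  set u := |w| * K with hu
  have hu0 : 0 ≤ u := mul_nonneg (abs_nonneg _) hW.K0
  have hu2 : u ^ 2 = w ^ 2 * K ^ 2 := by rw [hu, mul_pow, sq_abs]
  have hCu : 256 * (m + 5) * (u ^ 2 + τ ^ 2) ≤ 256 * (m + 5) * (K ^ 2 + 1) * (w ^ 2 + τ ^ 2) := by
    rw [mul_assoc (256 * (m + 5) : ℝ)]
    refine mul_le_mul_of_nonneg_left ?_ (by positivity)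
    rw [hu2]
    nlinarith [sq_nonneg w, mul_nonneg (sq_nonneg K) (sq_nonneg τ)]
  by_cases hs : u ≤ 1 / 16 ∧ τ ^ 2 ≤ 1 / 8
  · obtain ⟨n, hn1, hnT, -, hn⟩ := H63.exists_normal hE hT
    have hBv : ∀ v : E, ‖v‖ = 1 → ‖B v‖ ≤ K := fun v hv => by
      have := B.le_opNorm v
      rw [hv, mul_one] at this
      exact this.trans hBK
    have hgv : ∀ v : T, ‖v‖ = 1 → ⟪g, (v : E)⟫ ^ 2 ≤ τ ^ 2 := fun v hv => by
      have h1 : ⟪g, (v : E)⟫ = ⟪proj T g, (v : E)⟫ := by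
        unfold proj
        rw [T.inner_starProjection_left_eq_right, Submodule.starProjection_eq_self_iff.2 v.2]
      have h2 := abs_real_inner_le_norm (proj T g) (v : E)
      have h3 : ‖(v : E)‖ = 1 := hv
      rw [h3, mul_one, ← h1] at h2
      exact sq_le_sq' (abs_le.1 h2).1 (abs_le.1 h2).2
    obtain ⟨b, hb⟩ := normDet_ge hT ((fderiv ℝ (ft W) x).toLinearMap.domRestrict T)
      (a := 3 * u + τ ^ 2) (by linarith [hs.1, hs.2]) (fun v hv => by
        have h3 : ‖(v : E)‖ = 1 := hv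
        have h4 := hW.norm_fderiv_ft_sq hx (v : E)
        change |‖fderiv ℝ (ft W) x (v : E)‖ ^ 2 - 1| ≤ _
        rw [h4, h3, ← hB, ← hg, ← hw]
        have h5 : |w * ⟪(v : E), B v⟫| ≤ u := by
          rw [abs_mul]
          refine mul_le_mul_of_nonneg_left ((abs_real_inner_le_norm _ _).trans ?_) (abs_nonneg _)
          rw [h3, one_mul]; exact hBv _ h3
        have h6 : w ^ 2 * ‖B v‖ ^ 2 ≤ u ^ 2 := by
          rw [hu2]
          exact mul_le_mul_of_nonneg_left (pow_le_pow_left₀ (norm_nonneg _) (hBv _ h3) 2)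
            (sq_nonneg _)
        rw [mul_assoc]
        exact jac_arith1 hu0 hs.1 h5 (by positivity) h6 (sq_nonneg _) (hgv v hv))
    refine le_trans ?_ hb
    have h1 : ∀ i ∈ (Finset.univ : Finset (Fin m)),
        -(2 * w) * ⟪(b i : E), B (b i)⟫ - ⟪g, (b i : E)⟫ ^ 2
          ≤ ‖((fderiv ℝ (ft W) x).toLinearMap.domRestrict T) (b i)‖ ^ 2 - 1 := by
      intro i _
      have h3 : ‖(b i : E)‖ = 1 := b.norm_eq_one i
      have h4 := hW.norm_fderiv_ft_sq hx (b i : E)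
      change _ ≤ ‖fderiv ℝ (ft W) x (b i : E)‖ ^ 2 - 1
      rw [h4, h3, ← hB, ← hg, ← hw]
      have h8 : 0 ≤ w ^ 2 * ‖B (b i)‖ ^ 2 := by positivity
      linarith
    have h2 := Finset.sum_le_sum h1
    rw [Finset.sum_sub_distrib, ← Finset.mul_sum, ← tr_proj_comp b, ← norm_proj_sq_eq_sum b,
      ← hτ] at h2
    have e0 : tr ((proj T).comp B) = tr B - ⟪B n, n⟫ := H63.divAlong_normal hn (grad W) x
    have h3 : |⟪B n, n⟫| ≤ K * τ ^ 2 := hW.hess_nn hx hn1 hn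
    have h4 : |w * ⟪B n, n⟫| ≤ u * τ ^ 2 := by
      rw [abs_mul, hu, mul_assoc]
      exact mul_le_mul_of_nonneg_left h3 (abs_nonneg _)
    rw [e0] at h2
    exact jac_arith2 hu0 hs.1 (sq_nonneg _) hs.2 hm0 h4 (le_trans (le_of_eq (by ring)) h2) hCu
  · refine le_trans ?_ (LinearMap.normDet_nonneg _)
    have h2 : |w * tr B| ≤ (m + 1) * u := by
      rw [abs_mul, hu, mul_left_comm]
      refine mul_le_mul_of_nonneg_left ((abs_tr_le B).trans ?_) (abs_nonneg _)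
      rw [hE]; push_cast
      exact mul_le_mul_of_nonneg_left hBK (by positivity)
    exact jac_arith3 hu0 hwK (sq_nonneg _) hs hm0 h2 hCu

end Vale.Agent.P218DY
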