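import Vale.Agent.P218DY.Defs
import Vale.Agent.P218.H313.K

/-! The area inequality for a map which is injective with Lipschitz inverse on a set. -/

open MeasureTheory Set Filter Topology Metric
open scoped ENNReal NNReal RealInnerProductSpace

namespace Vale.Agent.P218DY

open Vale.Agent.P214 (proj IsApproxTangent)
open Vale.Agent.P218 Vale.Agent.P218.H313

set_option linter.unusedSectionVars false
set_option linter.unusedVariables false

variable {E : Type*} [NormedAddCommGroup E] [InnerProductSpace ℝ E] [FiniteDimensional ℝ E]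
  [MeasurableSpace E] [BorelSpace E]
variable {m : ℕ}

/-- the measure of a disc in a plane -/
lemma plane_ball {R : Submodule ℝ E} (hR : Module.finrank ℝ R = m) {s : ℝ} (hs : 0 ≤ s) :
    (μH[m] : Measure E) ((R : Set E) ∩ closedBall 0 s)
      = ENNReal.ofReal (s ^ m) * (μH[m] : Measure (EuclideanSpace ℝ (Fin m))) (closedBall 0 1) := by
  have hH := isAddHaar_euc m
  let b := (stdOrthonormalBasis ℝ R).reindex (finCongr hR)
  let i : EuclideanSpace ℝ (Fin m) → E := fun p => ((b.repr.symm p : R) : E)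
  have hi : Isometry i := (isometry_subtype_coe).comp b.repr.symm.isometry
  have h2 : ∀ p, ‖i p‖ = ‖p‖ := fun p => b.repr.symm.norm_map p
  have him : (R : Set E) ∩ closedBall 0 s = i '' closedBall 0 s := by
    ext y
    constructor
    · rintro ⟨hy, hy'⟩
      have h3 : i (b.repr ⟨y, hy⟩) = y := by simp [i]
      refine ⟨b.repr ⟨y, hy⟩, ?_, h3⟩
      rw [mem_closedBall_zero_iff] at hy' ⊢
      rwa [← h2, h3]
    · rintro ⟨p, hp, rfl⟩
      refine ⟨(b.repr.symm p).2, ?_⟩
      rw [mem_closedBall_zero_iff] at hp ⊢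
      rwa [h2]
  rw [him, hi.hausdorffMeasure_image (Or.inl (Nat.cast_nonneg m)),
    Measure.addHaar_closedBall' _ _ hs, finrank_euclideanSpace_fin]

/-- the Jacobian times the measure of the preimage of a ball -/
lemma jac_slab {T : Submodule ℝ E} (hT : Module.finrank ℝ T = m) (A : E →L[ℝ] E) {s : ℝ}
    (hs : 0 ≤ s) :
    ENNReal.ofReal (A.toLinearMap.domRestrict T).normDet
      * (μH[m] : Measure E) ((T : Set E) ∩ {v | ‖A v‖ ≤ s})
      ≤ ENNReal.ofReal (s ^ m) * (μH[m] : Measure (EuclideanSpace ℝ (Fin m))) (closedBall 0 1) := by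
  set f := A.toLinearMap.domRestrict T with hf
  by_cases h0 : f.normDet = 0
  · simp [h0]
  have hr : Module.finrank ℝ (LinearMap.range f) = m := by
    rw [← hT]
    exact (f.normDet_ne_zero_tfae.out 0 2).1 h0
  have h1 := f.hausdorffMeasure_image {v : T | ‖A v‖ ≤ s}
  rw [hT] at h1
  have h2 : (T : Set E) ∩ {v | ‖A v‖ ≤ s} = Subtype.val '' {v : T | ‖A v‖ ≤ s} := by
    ext y
    constructor
    · rintro ⟨hy, hy'⟩; exact ⟨⟨y, hy⟩, hy', rfl⟩
    · rintro ⟨p, hp, rfl⟩; exact ⟨p.2, hp⟩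
  rw [h2, isometry_subtype_coe.hausdorffMeasure_image (Or.inl (Nat.cast_nonneg m)), ← h1,
    ← plane_ball hr hs]
  refine measure_mono ?_
  rintro _ ⟨v, hv, rfl⟩
  exact ⟨⟨v, rfl⟩, mem_closedBall_zero_iff.2 hv⟩

/-- upper bounds from the tangent plane -/
lemma tangent_upper {μ : Measure E} [IsFiniteMeasureOnCompacts μ] {x : E} {T : Submodule ℝ E}
    (h : IsApproxTangent m μ x 1 T) {f : E → ℝ} (hf : Continuous f) (hfc : HasCompactSupport f)
    (hf0 : ∀ v, 0 ≤ f v) {b : ℝ} (hb : ∫ y in (T : Set E), f y ∂μH[m] < b) :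
    ∀ᶠ r in 𝓝[>] (0 : ℝ), μ {z | 1 ≤ f (r⁻¹ • (z - x))} ≤ ENNReal.ofReal (b * r ^ m) := by
  have h1 := h.2 f hf hfc
  rw [Nat.cast_one, one_mul] at h1
  filter_upwards [h1.eventually (gt_mem_nhds hb), self_mem_nhdsWithin] with r hr hr0
  have hr0' : 0 < r := hr0
  have hc : Continuous fun z : E => f (r⁻¹ • (z - x)) := by fun_prop
  have hcs : HasCompactSupport fun z : E => f (r⁻¹ • (z - x)) :=
    hfc.comp_homeomorph ((Homeomorph.subRight x).trans
      (Homeomorph.smulOfNeZero r⁻¹ (inv_ne_zero hr0'.ne')))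
  have hi : Integrable (fun z : E => f (r⁻¹ • (z - x))) μ := hc.integrable_of_hasCompactSupport hcs
  calc μ {z | 1 ≤ f (r⁻¹ • (z - x))} ≤ ∫⁻ z, ENNReal.ofReal (f (r⁻¹ • (z - x))) ∂μ :=
        meas_le_lintegral₀ hc.measurable.ennreal_ofReal.aemeasurable fun z hz =>
          ENNReal.one_le_ofReal.2 hz
    _ = ENNReal.ofReal (∫ z, f (r⁻¹ • (z - x)) ∂μ) :=
        (ofReal_integral_eq_lintegral_ofReal hi (Eventually.of_forall fun z => hf0 _)).symm
    _ ≤ _ := ENNReal.ofReal_le_ofReal ((div_lt_iff₀ (pow_pos hr0' m)).1 hr).le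

/-- the clamp -/
noncomputable def clamp (t : ℝ) : ℝ := max 0 (min 1 t)

lemma clamp_cont : Continuous clamp := by unfold clamp; fun_prop
lemma clamp_nonneg (t : ℝ) : 0 ≤ clamp t := le_max_left _ _
lemma clamp_le (t : ℝ) : clamp t ≤ 1 := max_le zero_le_one (min_le_left _ _)
lemma clamp_one {t : ℝ} (h : 1 ≤ t) : clamp t = 1 := by
  unfold clamp; rw [min_eq_left h, max_eq_right zero_le_one]
lemma clamp_zero {t : ℝ} (h : t ≤ 0) : clamp t = 0 := by
  unfold clamp; exact max_eq_left ((min_le_right _ _).trans h)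

lemma clamp_compact (L : ℝ) : HasCompactSupport fun v : E => clamp (L + 1 - ‖v‖) := by
  refine HasCompactSupport.intro (isCompact_closedBall (0 : E) (L + 1)) fun y hy => ?_
  rw [mem_closedBall_zero_iff, not_le] at hy
  exact clamp_zero (by linarith)

/-- finite upper density -/
lemma tangent_ball {μ : Measure E} [IsFiniteMeasureOnCompacts μ] {x : E} {T : Submodule ℝ E}
    (h : IsApproxTangent m μ x 1 T) (L : ℝ) :
    ∃ b > 0, ∀ᶠ r in 𝓝[>] (0 : ℝ), μ (closedBall x (L * r)) ≤ ENNReal.ofReal (b * r ^ m) := by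
  set f : E → ℝ := fun v => clamp (L + 1 - ‖v‖) with hf
  have hfc : Continuous f := clamp_cont.comp (by fun_prop)
  set I := ∫ y in (T : Set E), f y ∂μH[m] with hI
  refine ⟨|I| + 1, by positivity, ?_⟩
  filter_upwards [tangent_upper h hfc (clamp_compact L) (fun v => clamp_nonneg _)
    (b := |I| + 1) (by linarith [le_abs_self I]), self_mem_nhdsWithin] with r hr hr0
  have hr0' : 0 < r := hr0
  refine le_trans (measure_mono fun z hz => ?_) hr
  rw [mem_closedBall, dist_eq_norm] at hz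
  refine (clamp_one ?_).ge
  rw [norm_smul, norm_inv, Real.norm_of_nonneg hr0'.le]
  have : r⁻¹ * ‖z - x‖ ≤ L := by rw [inv_mul_le_iff₀ hr0']; linarith
  linarith

/-- the part of the ball that is mapped into the image ball -/
lemma tangent_slab {μ : Measure E} [IsFiniteMeasureOnCompacts μ] {x : E} {T : Submodule ℝ E}
    (h : IsApproxTangent m μ x 1 T) {φ : E → E} {A : E →L[ℝ] E} (hφ : HasFDerivAt φ A x)
    {L : ℝ} (hL : 0 < L) {j : ℝ} (hj0 : 0 ≤ j) (hj : j ≤ (A.toLinearMap.domRestrict T).normDet)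
    {ε : ℝ} (hε : 0 < ε) :
    ∀ᶠ r in 𝓝[>] (0 : ℝ), ENNReal.ofReal j * μ (closedBall x (L * r) ∩ φ ⁻¹' closedBall (φ x) r)
      ≤ ENNReal.ofReal ((1 + ε) * r ^ m)
        * (μH[m] : Measure (EuclideanSpace ℝ (Fin m))) (closedBall 0 1) := by
  have hH := isAddHaar_euc m
  set ω := (μH[m] : Measure (EuclideanSpace ℝ (Fin m))) (closedBall 0 1) with hω
  have hωt : ω ≠ ⊤ := measure_closedBall_lt_top.ne
  have hω0 : 0 < ω.toReal := ENNReal.toReal_pos (measure_closedBall_pos _ _ one_pos).ne' hωt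
  obtain ⟨η, hη, hηε⟩ : ∃ η : ℝ, 0 < η ∧ (1 + 2 * η) ^ m ≤ 1 + ε / 2 := by
    have h1 : Tendsto (fun η : ℝ => (1 + 2 * η) ^ m) (𝓝[>] 0) (𝓝 ((1 + 2 * 0) ^ m)) :=
      (by fun_prop : Continuous fun η : ℝ => (1 + 2 * η) ^ m).continuousAt.tendsto.mono_left
        nhdsWithin_le_nhds
    have h2 := h1.eventually (ge_mem_nhds (show ((1 : ℝ) + 2 * 0) ^ m < 1 + ε / 2 by
      simp; exact hε))
    obtain ⟨η, h3, h4⟩ := (h2.and self_mem_nhdsWithin).exists
    exact ⟨η, h4, h3⟩
  set f : E → ℝ := fun v => clamp (L + 1 - ‖v‖) * clamp ((1 + 2 * η - ‖A v‖) / η) with hf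
  have hfc : Continuous f := (clamp_cont.comp (by fun_prop)).mul (clamp_cont.comp (by fun_prop))
  have hfs : HasCompactSupport f := (clamp_compact L).mul_right
  have hf0 : ∀ v, 0 ≤ f v := fun v => mul_nonneg (clamp_nonneg _) (clamp_nonneg _)
  set I := ∫ y in (T : Set E), f y ∂μH[m] with hI
  have hI0 : 0 ≤ I := integral_nonneg hf0
  have hsl : MeasurableSet {v : E | ‖A v‖ ≤ 1 + 2 * η} :=
    (isClosed_le (by fun_prop) continuous_const).measurableSet
  have hI1 : ENNReal.ofReal I ≤ (μH[m] : Measure E) ((T : Set E) ∩ {v | ‖A v‖ ≤ 1 + 2 * η}) := by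
    rw [← Real.enorm_eq_ofReal hI0, inter_comm, ← Measure.restrict_apply hsl,
      ← lintegral_indicator_one hsl]
    refine (enorm_integral_le_lintegral_enorm _).trans (lintegral_mono fun v => ?_)
    by_cases hv : v ∈ {v : E | ‖A v‖ ≤ 1 + 2 * η}
    · rw [indicator_of_mem hv, Real.enorm_eq_ofReal (hf0 v)]
      exact ENNReal.ofReal_le_one.2 (mul_le_one₀ (clamp_le _) (clamp_nonneg _) (clamp_le _))
    · have hv' : 1 + 2 * η < ‖A v‖ := not_le.1 hv
      have : f v = 0 := by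
        simp only [hf]
        rw [clamp_zero (t := (1 + 2 * η - ‖A v‖) / η)
          (div_nonpos_of_nonpos_of_nonneg (by linarith) hη.le), mul_zero]
      rw [this]; simp
  have hI2 : j * I ≤ (1 + ε / 2) * ω.toReal := by
    have h1 := (mul_le_mul' (ENNReal.ofReal_le_ofReal hj) hI1).trans
      (jac_slab h.1 A (s := 1 + 2 * η) (by linarith))
    rw [← ENNReal.ofReal_mul hj0, ← hω, ← ENNReal.ofReal_toReal hωt,
      ← ENNReal.ofReal_mul (by positivity), ENNReal.ofReal_le_ofReal_iff (by positivity)] at h1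
    exact h1.trans (mul_le_mul_of_nonneg_right hηε hω0.le)
  set δ := ε / 2 * ω.toReal / (j + 1) with hδ
  have hδ0 : 0 < δ := by positivity
  have hδ1 : j * δ ≤ ε / 2 * ω.toReal := by
    rw [hδ, ← mul_div_assoc, div_le_iff₀ (by positivity)]
    nlinarith [mul_pos hε hω0]
  have hd := hφ.isLittleO.bound (div_pos hη hL)
  obtain ⟨ρ, hρ, hρ'⟩ := Metric.eventually_nhds_iff.1 hd
  have hsm : ∀ᶠ r in 𝓝[>] (0 : ℝ), L * r < ρ := by
    have h1 : Tendsto (fun r : ℝ => L * r) (𝓝[>] 0) (𝓝 (L * 0)) :=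
      (by fun_prop : Continuous fun r : ℝ => L * r).continuousAt.tendsto.mono_left
        nhdsWithin_le_nhds
    exact h1.eventually (gt_mem_nhds (by simpa using hρ))
  filter_upwards [tangent_upper h hfc hfs hf0 (b := I + δ) (by linarith), self_mem_nhdsWithin, hsm]
    with r hr hr0 hrρ
  have hr0' : 0 < r := hr0
  have hsub : closedBall x (L * r) ∩ φ ⁻¹' closedBall (φ x) r ⊆ {z | 1 ≤ f (r⁻¹ • (z - x))} := by
    rintro z ⟨hz, hz'⟩
    have h1 := hρ' (lt_of_le_of_lt hz hrρ)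
    rw [mem_preimage, mem_closedBall, dist_eq_norm] at hz'
    rw [mem_closedBall, dist_eq_norm] at hz
    have h2 : ‖A (z - x)‖ ≤ (1 + η) * r := by
      have h3 : ‖A (z - x)‖ ≤ ‖φ z - φ x‖ + ‖φ z - φ x - A (z - x)‖ := by
        have := norm_sub_le (φ z - φ x) (φ z - φ x - A (z - x))
        rwa [sub_sub_cancel] at this
      have h4 : η / L * ‖z - x‖ ≤ η * r := by
        rw [div_mul_eq_mul_div, div_le_iff₀ hL]
        nlinarith
      linarith
    have h5 : clamp (L + 1 - ‖r⁻¹ • (z - x)‖) = 1 := by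
      refine clamp_one ?_
      rw [norm_smul, norm_inv, Real.norm_of_nonneg hr0'.le]
      have : r⁻¹ * ‖z - x‖ ≤ L := by rw [inv_mul_le_iff₀ hr0']; linarith
      linarith
    have h6 : clamp ((1 + 2 * η - ‖A (r⁻¹ • (z - x))‖) / η) = 1 := by
      refine clamp_one ?_
      rw [map_smul, norm_smul, norm_inv, Real.norm_of_nonneg hr0'.le, le_div_iff₀ hη]
      have : r⁻¹ * ‖A (z - x)‖ ≤ 1 + η := by rw [inv_mul_le_iff₀ hr0']; linarith
      linarith
    change 1 ≤ clamp _ * clamp _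
    rw [h5, h6, mul_one]
  refine (mul_le_mul' le_rfl ((measure_mono hsub).trans hr)).trans ?_
  rw [← ENNReal.ofReal_mul hj0, ← ENNReal.ofReal_toReal hωt, ← ENNReal.ofReal_mul (by positivity)]
  refine ENNReal.ofReal_le_ofReal ?_
  have h7 : j * (I + δ) ≤ (1 + ε) * ω.toReal := by linarith
  have h8 := mul_le_mul_of_nonneg_right h7 (pow_pos hr0' m).le
  linarith

/-- the local estimate at a Lebesgue point -/
lemma push_local {μ : Measure E} [IsFiniteMeasureOnCompacts μ] {x : E} {T : Submodule ℝ E}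
    (h : IsApproxTangent m μ x 1 T) {φ : E → E} {A : E →L[ℝ] E} (hφ : HasFDerivAt φ A x)
    {L : ℝ} (hL : 0 < L) {J : E → ℝ} (hj0 : 0 ≤ J x)
    (hj : J x ≤ (A.toLinearMap.domRestrict T).normDet)
    (hleb : Tendsto (fun r => (∫⁻ z in closedBall x r, ‖J z - J x‖ₑ ∂μ) / μ (closedBall x r))
      (𝓝[>] 0) (𝓝 0)) {ε : ℝ} (hε : 0 < ε) :
    ∀ᶠ r in 𝓝[>] (0 : ℝ),
      ∫⁻ z in closedBall x (L * r) ∩ φ ⁻¹' closedBall (φ x) r, ENNReal.ofReal (J z) ∂μ
      ≤ ENNReal.ofReal ((1 + ε) * r ^ m)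
        * (μH[m] : Measure (EuclideanSpace ℝ (Fin m))) (closedBall 0 1) := by
  have hH := isAddHaar_euc m
  have h1 := tangent_slab h hφ hL hj0 hj (half_pos hε)
  set ω := (μH[m] : Measure (EuclideanSpace ℝ (Fin m))) (closedBall 0 1) with hω
  have hωt : ω ≠ ⊤ := measure_closedBall_lt_top.ne
  have hω0 : 0 < ω.toReal := ENNReal.toReal_pos (measure_closedBall_pos _ _ one_pos).ne' hωt
  obtain ⟨b, hb, h2⟩ := tangent_ball h L
  set κ := ε / 2 * ω.toReal / b with hκ
  have hκ0 : 0 < κ := by positivity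
  have hLr : Tendsto (fun r : ℝ => L * r) (𝓝[>] 0) (𝓝[>] 0) := by
    refine tendsto_nhdsWithin_iff.2 ⟨?_, ?_⟩
    · have h3 : Tendsto (fun r : ℝ => L * r) (𝓝[>] 0) (𝓝 (L * 0)) :=
        (by fun_prop : Continuous fun r : ℝ => L * r).continuousAt.tendsto.mono_left
          nhdsWithin_le_nhds
      rwa [mul_zero] at h3
    · filter_upwards [self_mem_nhdsWithin] with r hr using mul_pos hL hr
  have h3 := (hleb.comp hLr).eventually (ge_mem_nhds (ENNReal.ofReal_pos.2 hκ0))
  filter_upwards [h1, h2, h3, self_mem_nhdsWithin] with r hr1 hr2 hr3 hr0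
  have hr0' : 0 < r := hr0
  simp only [Function.comp_apply] at hr3
  rw [ENNReal.div_le_iff_le_mul (Or.inr ENNReal.ofReal_ne_top)
    (Or.inl measure_closedBall_lt_top.ne)] at hr3
  set D := closedBall x (L * r) ∩ φ ⁻¹' closedBall (φ x) r with hD
  calc ∫⁻ z in D, ENNReal.ofReal (J z) ∂μ
      ≤ ∫⁻ z in D, (ENNReal.ofReal (J x) + ‖J z - J x‖ₑ) ∂μ := by
        refine lintegral_mono fun z => ?_
        rw [Real.enorm_eq_ofReal_abs, ← ENNReal.ofReal_add hj0 (abs_nonneg _)]
        exact ENNReal.ofReal_le_ofReal (by linarith [le_abs_self (J z - J x)])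
    _ = ENNReal.ofReal (J x) * μ D + ∫⁻ z in D, ‖J z - J x‖ₑ ∂μ := by
        rw [lintegral_add_left measurable_const, setLIntegral_const]
    _ ≤ ENNReal.ofReal ((1 + ε / 2) * r ^ m) * ω
        + ENNReal.ofReal κ * ENNReal.ofReal (b * r ^ m) :=
        add_le_add hr1 (((lintegral_mono_set inter_subset_left).trans hr3).trans
          (mul_le_mul' le_rfl hr2))
    _ = _ := by
        rw [← ENNReal.ofReal_toReal hωt, ← ENNReal.ofReal_mul (by positivity),
          ← ENNReal.ofReal_mul (by positivity), ← ENNReal.ofReal_mul (by positivity),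
          ← ENNReal.ofReal_add (by positivity) (by positivity)]
        congr 1
        rw [hκ]
        field_simp
        ring

/-- DY-F1: area inequality -/
theorem push_le {μ : Measure E} [IsFiniteMeasureOnCompacts μ] {φ : E → E} (hφ : ContDiff ℝ 1 φ)
    {S : Set E} (hS : MeasurableSet S) [IsLocallyFiniteMeasure ((μH[m] : Measure E).restrict S)]
    (hlow : ∀ y ∈ S, ∀ ε : ℝ, 0 < ε → ∀ᶠ r in 𝓝[>] (0 : ℝ), ENNReal.ofReal ((1 - ε) * r ^ m)
      * (μH[m] : Measure (EuclideanSpace ℝ (Fin m))) (closedBall 0 1)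
        ≤ (μH[m] : Measure E).restrict S (closedBall y r))
    {G : Set E} (hG : MeasurableSet G) (hGS : MapsTo φ G S) {L : ℝ}
    (hinj : ∀ p ∈ G, ∀ p' ∈ G, dist p p' ≤ L * dist (φ p) (φ p'))
    {T : E → Submodule ℝ E} (htan : ∀ᵐ x ∂μ, x ∈ G → IsApproxTangent m μ x 1 (T x))
    {J : E → ℝ} (hJm : AEStronglyMeasurable J μ) {B : ℝ} (hJB : ∀ x, 0 ≤ J x ∧ J x ≤ B)
    (hJ : ∀ᵐ x ∂μ, x ∈ G → J x ≤ ((fderiv ℝ φ x).toLinearMap.domRestrict (T x)).normDet)
    {g : E → ℝ≥0∞} (hg : Measurable g) :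
    ∫⁻ x in G, ENNReal.ofReal (J x) * g (φ x) ∂μ ≤ ∫⁻ y in S, g y ∂(μH[m] : Measure E) := by
  have hφc : Continuous φ := hφ.continuous
  have hφm : Measurable φ := hφc.measurable
  set σ := (μH[m] : Measure E).restrict S with hσ
  have hJe : AEMeasurable (fun x => ENNReal.ofReal (J x)) (μ.restrict G) :=
    hJm.aemeasurable.restrict.ennreal_ofReal
  set ρ := (μ.restrict G).withDensity fun x => ENNReal.ofReal (J x) with hρ
  set ν := ρ.map φ with hν
  have hνa : ∀ a, MeasurableSet a → ν a = ∫⁻ z in φ ⁻¹' a ∩ G, ENNReal.ofReal (J z) ∂μ := by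
    intro a ha
    rw [hν, Measure.map_apply hφm ha, hρ, withDensity_apply _ (hφm ha),
      Measure.restrict_restrict (hφm ha)]
  have hli : LocallyIntegrable J μ := (locallyIntegrable_const B).mono hJm
    (Eventually.of_forall fun x => by
      rw [Real.norm_of_nonneg (hJB x).1]; exact (hJB x).2.trans (le_abs_self _))
  have hleb := (Besicovitch.vitaliFamily μ).ae_tendsto_lintegral_enorm_sub_div hli
  obtain ⟨Z, hZ, hZm, hZ0⟩ := exists_measurable_superset_of_null (ae_iff.1 (htan.and (hJ.and hleb)))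
  set L' := max L 1 with hL'
  have hL0 : 0 < L' := lt_of_lt_of_le one_pos (le_max_right _ _)
  have hN : MeasurableSet (φ '' (G \ Z)) := by
    refine (hG.diff hZm).image_of_continuousOn_injOn hφc.continuousOn fun p hp p' hp' hpp => ?_
    have h1 := hinj p hp.1 p' hp'.1
    rw [hpp, dist_self, mul_zero] at h1
    exact dist_le_zero.1 h1
  have hN0 : ν (φ '' (G \ Z))ᶜ = 0 := by
    rw [hνa _ hN.compl]
    refine setLIntegral_measure_zero _ _ (measure_mono_null (fun z hz => ?_) hZ0)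
    by_contra hzZ
    exact hz.1 ⟨z, ⟨hz.2, hzZ⟩, rfl⟩
  have key : ∀ c : ℝ≥0, 1 < c → ∀ s, ν s ≤ c * σ s := by
    intro c hc s
    have hc' : (1 : ℝ) < c := hc
    have h1 : ν (s ∩ φ '' (G \ Z)) ≤ (c • σ) (s ∩ φ '' (G \ Z)) := by
      refine (Besicovitch.vitaliFamily ν).measure_le_of_frequently_le (c • σ)
        Measure.AbsolutelyContinuous.rfl _ ?_
      rintro _ ⟨-, x, ⟨hxG, hxZ⟩, rfl⟩
      have hx : _ := not_not.1 fun hh => hxZ (hZ hh)
      obtain ⟨hx1, hx2, hx3⟩ := hx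
      set ε : ℝ := (c - 1) / (c + 1) with hε
      have hε0 : 0 < ε := div_pos (by linarith) (by linarith)
      have hε1 : (1 + ε) = c * (1 - ε) := by rw [hε]; field_simp; ring
      have h2 := push_local (hx1 hxG) ((hφ.differentiable one_ne_zero x).hasFDerivAt) hL0
        (hJB x).1 (hx2 hxG) (hx3.comp (Besicovitch.tendsto_filterAt μ x)) hε0
      refine (Besicovitch.tendsto_filterAt ν (φ x)).frequently (Eventually.frequently ?_)
      filter_upwards [h2, hlow _ (hGS hxG) ε hε0, self_mem_nhdsWithin] with r hr1 hr2 hr0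
      have hr0' : 0 < r := hr0
      rw [hνa _ measurableSet_closedBall]
      refine le_trans (lintegral_mono_set ?_) (hr1.trans ?_)
      · rintro z ⟨hz, hzG⟩
        refine ⟨?_, hz⟩
        have h3 := hinj z hzG x hxG
        have h4 : dist (φ z) (φ x) ≤ r := hz
        calc dist z x ≤ L * dist (φ z) (φ x) := h3
          _ ≤ L' * dist (φ z) (φ x) := mul_le_mul_of_nonneg_right (le_max_left _ _) dist_nonneg
          _ ≤ L' * r := mul_le_mul_of_nonneg_left h4 hL0.le
      · rw [Measure.coe_nnreal_smul_apply, hε1, mul_assoc, ENNReal.ofReal_mul c.coe_nonneg, mul_assoc,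
          ENNReal.ofReal_coe_nnreal]
        exact mul_le_mul' le_rfl hr2
    calc ν s ≤ ν (s ∩ φ '' (G \ Z)) + ν (s \ φ '' (G \ Z)) := measure_le_inter_add_sdiff _ _ _
      _ ≤ (c • σ) (s ∩ φ '' (G \ Z)) + 0 := by
          refine add_le_add h1 ?_
          rw [← hN0]
          exact measure_mono fun z hz => hz.2
      _ ≤ c * σ s := by
          rw [add_zero, Measure.coe_nnreal_smul_apply]
          exact mul_le_mul' le_rfl (measure_mono inter_subset_left)
  have hle : ν ≤ σ := by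
    refine Measure.le_iff'.2 fun s => ?_
    refine ENNReal.le_of_forall_lt_one_mul_le fun a ha => ?_
    rcases eq_or_ne a 0 with rfl | ha0
    · simp
    have hat : a ≠ ⊤ := ha.ne_top
    have h1 := key (a⁻¹).toNNReal (by
      rw [← ENNReal.coe_lt_coe, ENNReal.coe_toNNReal (ENNReal.inv_ne_top.2 ha0)]
      exact ENNReal.one_lt_inv.2 ha) s
    rw [ENNReal.coe_toNNReal (ENNReal.inv_ne_top.2 ha0)] at h1
    calc a * ν s ≤ a * (a⁻¹ * σ s) := mul_le_mul' le_rfl h1
      _ = σ s := by rw [← mul_assoc, ENNReal.mul_inv_cancel ha0 hat, one_mul]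
  calc ∫⁻ x in G, ENNReal.ofReal (J x) * g (φ x) ∂μ = ∫⁻ y, g y ∂ν := by
        rw [hν, lintegral_map hg hφm, hρ]
        exact (lintegral_withDensity_eq_lintegral_mul₀ hJe (hg.comp hφm).aemeasurable).symm
    _ ≤ _ := lintegral_mono' hle le_rfl

end Vale.Agent.P218DY
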